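import Vale.Agent.P308.Main

namespace Vale.Agent.Results.P308.Quasipoly

open Vale.Agent.P317 Vale.Agent.P308 Turing

/-- A quasi-polynomial time randomized approximation scheme for the number of perfect matchings of
an arbitrary finite simple graph.  The machine `A` runs in time polynomial in the length of its input
(adjacency matrix, `ε`, `δ`, coins), and `2 ^ (d * log ^ 3 (n / ε)) * log (1 / δ)` coins suffice. -/
theorem result : ∃ (d : ℕ) (A : Inp → ℕ × ℕ) (tm : TM2ComputableInPolyTime encInp (encPair encNat encNat) A),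
    (∀ k, Finite (tm.tm.Γ k)) ∧
    ∀ (n : ℕ) (G : SimpleGraph (Fin n)) (ε δ : ℚ), 0 < ε → ε < 1 → 0 < δ → δ < 1 / 2 →
      ∀ ρ : ℕ, 2 ^ (d * (Nat.log 2 (n + ⌈1 / ε⌉₊) + 2) ^ 3) * (Nat.log 2 ⌈1 / δ⌉₊ + 2) ≤ ρ →
        1 - (δ : ℝ) ≤ coinProb ρ fun w =>
          let z := A ((adjM G, ε, δ), w)
          (1 - (ε : ℝ)) * numPM G ≤ (z.1 : ℝ) / z.2 ∧ (z.1 : ℝ) / z.2 ≤ (1 + (ε : ℝ)) * numPM G := by
  obtain ⟨tm, h⟩ := poly_alg
  exact ⟨8000, alg, tm, h, fun n G ε δ e0 e1 d0 _ ρ hρ => scheme G e0 e1 d0 hρ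
    (fun z => (1 - (ε : ℝ)) * numPM G ≤ (z.1 : ℝ) / z.2 ∧ (z.1 : ℝ) / z.2 ≤ (1 + (ε : ℝ)) * numPM G)
    fun _ a b => ⟨a, b⟩⟩

end Vale.Agent.Results.P308.Quasipoly
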